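import Crest.Agent.N111.O.Frame
import Crest.Agent.N111.Api.Row

/-!
# Row 111, module O: the wandering projections (`OutStmt`) (helper44).
-/

set_option autoImplicit false
set_option linter.unusedSectionVars false

namespace Crest.Agent.N111

open MeasureTheory Topology Filter Matrix
open scoped InnerProductSpace

namespace OutAux

variable {K : Type} [NormedAddCommGroup K] [InnerProductSpace ℂ K] [CompleteSpace K]

section word
variable {Y : Type} [MeasurableSpace Y] {n : ℕ}

theorem word_succ (P : Fin (n + 1) → POVM Y K) (f : Fin (n + 1) → Y → ℂ) :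
    word P f = (P 0).E (f 0) * word (fun i => P i.succ) fun i => f i.succ := by
  simp only [word, List.ofFn_succ, List.prod_cons]

theorem commute_word {P : Fin n → POVM Y K} {f : Fin n → Y → ℂ} {S : K →L[ℂ] K}
    (h : ∀ i, Commute S ((P i).E (f i))) : Commute S (word P f) :=
  Commute.list_prod_right _ _ fun x hx => by
    obtain ⟨i, rfl⟩ := List.mem_ofFn.1 hx
    exact h i

theorem word_congr {P Q : Fin n → POVM Y K} {f g : Fin n → Y → ℂ}
    (h : ∀ i, (P i).E (f i) = (Q i).E (g i)) : word P f = word Q g := by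
  simp only [word, h]

theorem word_one (P : Fin n → POVM Y K) : word P (fun _ _ => 1) = 1 := by
  simp [word, POVM.E_one]

theorem word_eq_zero {P : Fin n → POVM Y K} {f : Fin n → Y → ℂ} {i : Fin n}
    (h : (P i).E (f i) = 0) : word P f = 0 :=
  List.prod_eq_zero (List.mem_ofFn.2 ⟨i, h⟩)

theorem conj_word (u u' : K →L[ℂ] K) (h : u * u' = 1) (h' : u' * u = 1) {P Q : Fin n → POVM Y K}
    {f g : Fin n → Y → ℂ} (e : ∀ i, u * (P i).E (f i) * u' = (Q i).E (g i)) :
    u * word P f * u' = word Q g := by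
  induction n with
  | zero => simpa [word] using h
  | succ n ih =>
    rw [word_succ, word_succ, ← e 0, ← ih fun i => e i.succ]
    simp only [mul_assoc]
    rw [← mul_assoc u' u, h', one_mul]

/-- commuting projection valued measures -/
def CPVM (P : Fin n → POVM Y K) : Prop :=
  (∀ i, (P i).IsPVM) ∧ ∀ i k f g, BM f → BM g → Commute ((P i).E f) ((P k).E g)

theorem CPVM.tail {P : Fin (n + 1) → POVM Y K} (h : CPVM P) : CPVM fun i => P i.succ :=
  ⟨fun _ => h.1 _, fun _ _ => h.2 _ _⟩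

theorem CPVM.word_mul {P : Fin n → POVM Y K} (h : CPVM P) {f g : Fin n → Y → ℂ}
    (hf : ∀ i, BM (f i)) (hg : ∀ i, BM (g i)) :
    word P (fun i y => f i y * g i y) = word P f * word P g := by
  induction n with
  | zero => simp [word]
  | succ n ih =>
    rw [word_succ, word_succ, word_succ, h.1 0 _ _ (hf 0) (hg 0),
      ih h.tail (fun i => hf _) fun i => hg _]
    simp only [mul_assoc]
    congr 1
    rw [← mul_assoc, ← mul_assoc,
      (commute_word (P := fun i => P i.succ) fun i => h.2 0 _ _ _ (hg 0) (hf _)).eq]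

theorem CPVM.star_word {P : Fin n → POVM Y K} (h : CPVM P) {f : Fin n → Y → ℂ}
    (hf : ∀ i, BM (f i)) : star (word P f) = word P fun i y => (starRingEnd ℂ) (f i y) := by
  induction n with
  | zero => simp [word]
  | succ n ih =>
    rw [word_succ, word_succ, star_mul, ih h.tail fun i => hf _, POVM.E_star _ (hf 0)]
    exact (commute_word (P := fun i => P i.succ) fun i =>
      h.2 0 _ _ _ (hf 0).conj (hf _).conj).eq.symm

end word

section ind
variable (I : Ind K)

theorem commute_limSet {S : K →L[ℂ] K}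
    (h : ∀ g, Commute (I.U g * S * I.U g⁻¹) I.j ∧ ∀ μ, Commute (I.U g * S * I.U g⁻¹) (I.ρ μ)) :
    ∀ T ∈ I.LimSet, Commute S T := by
  rintro T ⟨l, F, hl, -, hF, hT⟩
  refine (hT.mul_left S).unique ?_
  convert hT.mul_right S using 2 with k
  have e := (I.commute_m (h (al k)).2 (h (al k)).1 (bm_Γ (hF k))).eq
  have e' := congrArg (fun X => I.U (al k)⁻¹ * X * I.U (al k)) e
  simp only [Ind.σ, mul_assoc, URep.inv_mul_self, mul_one] at e' ⊢
  rw [← mul_assoc (I.U (al k)⁻¹) (I.U (al k)), URep.inv_mul_self, one_mul] at e'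
  exact e'

variable {I}

theorem commute_pro {Φ : V → POVM V K} (hΦ : I.IsPro Φ) {S : K →L[ℂ] K}
    (h : ∀ g, Commute (I.U g * S * I.U g⁻¹) I.j ∧ ∀ μ, Commute (I.U g * S * I.U g⁻¹) (I.ρ μ))
    {x : V} (hx : x ≠ 0) {f : V → ℂ} (hf : BM f) : Commute S ((Φ x).E f) := by
  obtain ⟨g, rfl⟩ := exists_ac_ev hx 0
  have h1 := hΦ.gen (I.U g⁻¹ * S * I.U g) (commute_limSet I fun g' => by
    have := h (g' * g⁻¹)
    simpa only [map_mul, _root_.mul_inv_rev, inv_inv, mul_assoc] using this) f hf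
  have e' := congrArg (fun X => I.U g * X * I.U g⁻¹) h1.eq
  rw [← hΦ.covU _ (ev_ne_zero 0) f hf g]
  simp only [mul_assoc, URep.mul_inv_self, mul_one] at e'
  rw [← mul_assoc (I.U g) (I.U g⁻¹), URep.mul_inv_self, one_mul] at e'
  change _ = _
  simpa only [mul_assoc] using e'

end ind

theorem x4_ne_zero (i : Fin 4) : x4 i ≠ 0 := by
  intro h
  fin_cases i
  · exact ev_ne_zero 0 h
  · exact ev_ne_zero 1 h
  · exact ev_ne_zero 2 h
  · simpa [x4, ev] using congrFun h 0

section supp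
variable {I : Ind K} {L : ℕ → ℝ} {Φ A : V → POVM V K} {sc : ℝ → ℝ}

theorem exists_supp (hA : I.IsLift L Φ A sc) (x : Fin 4 → V) :
    ∃ z ∈ supp (word fun i => A (x i)), ∀ i, z i ≠ 0 := by
  by_contra hc
  push Not at hc
  have h := (isPoly_word fun i => A (x i)).eq_zero_of_conc (Z := fun _ => {0}ᶜ)
    (fun _ => isOpen_compl_singleton) (fun f hf => word_congr fun i =>
      (A (x i)).E_congr_of_null (measurableSet_singleton 0) (hA.zero _) (hf i)
        ((BM.ic (measurableSet_singleton 0).compl).mul (hf i)) fun y hy => by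
          rw [ic_of_mem hy, one_mul])
    (fun z hz hs => by obtain ⟨i, hi⟩ := hc z hs; exact hz i hi) (fun _ _ => 1) fun _ => BM.one
  rw [word_one] at h
  exact I.ξ_ne (by simpa using congrArg (fun T : K →L[ℂ] K => T I.ξ) h)

/-- three of the four points of a support point, moved to the standard triple -/
theorem triple_mem (hA : I.IsLift L Φ A sc) {x z : Fin 4 → V}
    (hz : z ∈ supp (word fun i => A (x i))) (e : Fin 3 → Fin 4) (he : Function.Injective e)
    (l : Fin 4)
    (hw : ∀ f : Fin 4 → V → ℂ, (∀ i, BM (f i)) → word (fun i => A (x i)) f =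
      (A (x (e 0))).E (f (e 0)) * (A (x (e 1))).E (f (e 1)) * (A (x (e 2))).E (f (e 2)) *
        (A (x l)).E (f l))
    (hd : d3 (x (e 0)) (x (e 1)) (x (e 2)) = 1) :
    (fun i => z (e i)) ∈ supp (word ![A (ev 0), A (ev 1), A (ev 2)]) := by
  obtain ⟨g, h0, h1, h2⟩ := exists_ac_triple hd
  intro O hO hnull
  refine hz (Function.extend e O fun _ => Set.univ) (fun k => ?_) fun f hf hsupp => ?_
  · by_cases hk : ∃ i, e i = k
    · obtain ⟨i, rfl⟩ := hk
      rw [he.extend_apply]
      exact hO i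
    · rw [Function.extend_apply' _ _ _ hk]
      exact univ_mem
  · have := hnull (fun i => f (e i)) (fun i => hf _) fun i y hy =>
      hsupp _ y (by rwa [he.extend_apply])
    rw [word_three] at this
    rw [hw f hf, ← h0, ← h1, ← h2, ← hA.covU _ (ev_ne_zero 0) _ (hf _) g,
      ← hA.covU _ (ev_ne_zero 1) _ (hf _) g, ← hA.covU _ (ev_ne_zero 2) _ (hf _) g]
    have e' := congrArg (fun X => I.U g * X * I.U g⁻¹ * (A (x l)).E (f l)) this
    simp only [mul_zero, zero_mul] at e'
    rw [← e']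
    simp only [mul_assoc, ← mul_assoc (I.U g⁻¹) (I.U g), URep.inv_mul_self, one_mul]

theorem exists_frame {B : V → POVM V K} {sc' : ℝ → ℝ} (hA : I.IsLift L Φ A sc)
    (hc : Com L A B sc sc') : ∃ z ∈ supp (word fun i => A (x4 i)), (fr z).det ≠ 0 := by
  obtain ⟨z, hz, hz0⟩ := exists_supp hA x4
  obtain ⟨D, hD, hdet⟩ := hc.det
  have w4 : ∀ f : Fin 4 → V → ℂ, word (fun i => A (x4 i)) f = (A (x4 0)).E (f 0) *
      (A (x4 1)).E (f 1) * (A (x4 2)).E (f 2) * (A (x4 3)).E (f 3) := fun f => by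
    simp [word, List.ofFn_succ, mul_assoc]
  have cm : ∀ f : Fin 4 → V → ℂ, (∀ i, BM (f i)) → ∀ i k,
      (A (x4 i)).E (f i) * (A (x4 k)).E (f k) = (A (x4 k)).E (f k) * (A (x4 i)).E (f i) :=
    fun f hf i k => (hc.AA _ _ (x4_ne_zero i) (x4_ne_zero k) _ _ (hf i) (hf k)).eq
  have cm' : ∀ f : Fin 4 → V → ℂ, (∀ i, BM (f i)) → ∀ i k T,
      (A (x4 i)).E (f i) * ((A (x4 k)).E (f k) * T) =
        (A (x4 k)).E (f k) * ((A (x4 i)).E (f i) * T) :=
    fun f hf i k T => by rw [← mul_assoc, cm f hf, mul_assoc]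
  have key : ∀ (e : Fin 3 → Fin 4) (l : Fin 4), Function.Injective e →
      (∀ f : Fin 4 → V → ℂ, (∀ i, BM (f i)) → word (fun i => A (x4 i)) f =
        (A (x4 (e 0))).E (f (e 0)) * (A (x4 (e 1))).E (f (e 1)) * (A (x4 (e 2))).E (f (e 2)) *
          (A (x4 l)).E (f l)) → d3 (x4 (e 0)) (x4 (e 1)) (x4 (e 2)) = 1 →
      d3 (z (e 0)) (z (e 1)) (z (e 2)) ≠ 0 := fun e l he hw hd h0 => by
    have := hdet _ (triple_mem hA hz e he l hw hd) fun i => hz0 _
    rw [show z (e 0) ⬝ᵥ z (e 1) ⨯₃ z (e 2) = 0 from h0, abs_zero] at this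
    exact hD.ne this
  have k3 := key ![0, 1, 2] 3 (by decide) (fun f _ => w4 f) (by simp [d3_eq, x4, ev])
  have k0 := key ![3, 1, 2] 0 (by decide) (fun f hf => by
    simp only [w4, mul_assoc, cons_val_zero, cons_val_one, cons_val]
    rw [cm f hf 2 3, cm' f hf 1 3, cm' f hf 0 3, cm' f hf 0 1, cm f hf 0 2])
    (by simp [d3_eq, x4, ev])
  have k1 := key ![0, 3, 2] 1 (by decide) (fun f hf => by
    simp only [w4, mul_assoc, cons_val_zero, cons_val_one, cons_val]
    rw [cm f hf 2 3, cm' f hf 1 3, cm f hf 1 2]) (by simp [d3_eq, x4, ev])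
  have k2 := key ![0, 1, 3] 2 (by decide) (fun f hf => by
    simp only [w4, mul_assoc, cons_val_zero, cons_val_one, cons_val]
    rw [cm f hf 2 3]) (by simp [d3_eq, x4, ev])
  refine ⟨z, hz, ?_⟩
  rw [det_fr]
  exact mul_ne_zero (mul_ne_zero (mul_ne_zero k0 k1) k2) k3

end supp

end OutAux

open OutAux

theorem out : OutStmt := by
  intro K _ _ _ I I' L Φ Ψ A B sc sc' hg hc
  have hΦ := hg.pro
  have hA := hg.lift
  obtain ⟨z, hz, hdet⟩ := exists_frame hA hc
  obtain ⟨ε, hε, hw⟩ := exists_wandering hdet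
  have hO : ∀ i, MeasurableSet (cone (z i) ε) := fun i => (isOpen_cone _ _).measurableSet
  have hb : ∀ i, BM (ic (cone (z i) ε)) := fun i => BM.ic (hO i)
  have hx : ∀ g i, ac g (x4 i) ≠ 0 := fun g i => ac_ne_zero g (x4_ne_zero i)
  have cp : ∀ g, CPVM fun i => Φ (ac g (x4 i)) := fun g => ⟨fun i => hΦ.pvm _,
    fun i k f f' hf hf' => by
      rw [hA.proj _ (hx g i) f hf, hA.proj _ (hx g k) f' hf']
      exact hc.AA _ _ (hx g i) (hx g k) _ _ (hf.comp measurable_nrm) (hf'.comp measurable_nrm)⟩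
  refine ⟨fun i => cone (z i) ε, hO, fun g => ?_, fun g => ?_, fun h g => ?_, fun g μ hμ => ?_,
    fun h0 => ?_, fun g a ha => ?_, fun S hU hρ hj g => ?_⟩
  · rw [P4, (cp g).star_word hb]
    simp only [conj_ic]
  · rw [P4, ← (cp g).word_mul hb hb]
    congr 1
    funext i
    rw [← ic_inter, Set.inter_self]
  · exact conj_word _ _ (I.U.mul_inv_self h) (I.U.inv_mul_self h) fun i => by
      rw [hΦ.covU _ (hx g i) _ (hb i), ac_mul]
  · have e := conj_word _ _ (I.ρ.mul_inv_self μ) (I.ρ.inv_mul_self μ)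
      (P := fun i => Φ (ac g (x4 i))) (Q := fun i => Φ (ac g (x4 i)))
      fun i => hΦ.covρ _ (hx g i) _ (hb i) (hom0_cone _ _) μ
    obtain ⟨i, hi⟩ : ∃ i, ∀ a ∈ cone (z i) ε, ac (ι μ⁻¹) a ∉ cone (z i) ε := by
      by_contra hcon
      push Not at hcon
      exact hμ (inv_eq_one.1 (hw _ hcon))
    have e0 : P4 Φ (fun i => cone (z i) ε) g *
        (I.ρ μ * P4 Φ (fun i => cone (z i) ε) g * I.ρ μ⁻¹) = 0 := by
      rw [P4, e, ← (cp g).word_mul hb fun i => (hb i).comp (measurable_ac _)]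
      refine word_eq_zero (i := i) (Eq.trans ?_ (Φ (ac g (x4 i))).E_zero)
      congr 1
      funext a
      by_cases ha : a ∈ cone (z i) ε
      · rw [ic_of_notMem (hi a ha), mul_zero]
      · rw [ic_of_notMem ha, zero_mul]
    simpa only [mul_assoc, URep.inv_mul_self, mul_one, zero_mul] using
      congrArg (fun X => X * I.ρ μ) e0
  · refine hz (fun i => cone (z i) ε) (fun i => (isOpen_cone _ _).mem_nhds (mem_cone _ hε))
      fun f hf hs => ?_
    have cA : CPVM fun i => A (x4 i) :=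
      ⟨fun i => hA.pvm _, fun i k => hc.AA _ _ (x4_ne_zero i) (x4_ne_zero k)⟩
    have e1 : word (fun i => A (x4 i)) (fun i => ic (cone (z i) ε)) = 0 := by
      rw [← h0, P4]
      refine word_congr fun i => ?_
      rw [ac_one, hA.proj _ (x4_ne_zero i) _ (hb i)]
      simp only [(hom0_cone _ _).nrm]
    have e2 : f = fun i y => ic (cone (z i) ε) y * f i y := by
      funext i y
      by_cases hy : y ∈ cone (z i) ε
      · rw [ic_of_mem hy, one_mul]
      · rw [hs i y hy, mul_zero]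
    rw [e2, cA.word_mul hb hf, e1, zero_mul]
  · exact (commute_word fun i => commute_pro hΦ (fun g' => ⟨I.Cj _ (I.conj_C a ha g'),
      I.Cρ _ (I.conj_C a ha g')⟩) (hx g i) (hb i)).eq
  · refine commute_word fun i => commute_pro hΦ (fun g' => ?_) (hx g i) (hb i)
    rw [← (hU g').eq, mul_assoc, URep.mul_inv_self, mul_one]
    exact ⟨hj, hρ⟩

end Crest.Agent.N111
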