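import Crest.Agent.N111.Lib.Geo2

/-!
# Row 111, module O: projective frames and wandering cones (helper44).
-/

set_option autoImplicit false

namespace Crest.Agent.N111

open Topology Filter Matrix

namespace OutAux

/-- the determinant of three vectors -/
def d3 (a b c : V) : ℝ := a ⬝ᵥ (b ⨯₃ c)

/-- Cramer coordinates of the fourth point -/
def cw (a : Fin 4 → V) : Fin 3 → ℝ :=
  ![d3 (a 3) (a 1) (a 2), d3 (a 0) (a 3) (a 2), d3 (a 0) (a 1) (a 3)]

/-- the frame matrix of four points -/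
def fr (a : Fin 4 → V) : Matrix (Fin 3) (Fin 3) ℝ := of fun i k => cw a k * a k.castSucc i

theorem d3_eq (a b c : V) : d3 a b c = a 0 * (b 1 * c 2 - b 2 * c 1) + a 1 * (b 2 * c 0 - b 0 * c 2)
    + a 2 * (b 0 * c 1 - b 1 * c 0) := by
  simp [d3, cross_apply, dotProduct, Fin.sum_univ_three]

theorem d3_smul (r s t : ℝ) (a b c : V) : d3 (r • a) (s • b) (t • c) = r * s * t * d3 a b c := by
  simp only [d3_eq, Pi.smul_apply, smul_eq_mul]; ring

theorem det_fr (a : Fin 4 → V) :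
    (fr a).det = cw a 0 * cw a 1 * cw a 2 * d3 (a 0) (a 1) (a 2) := by
  rw [det_fin_three, d3_eq]
  simp only [fr, of_apply, Fin.castSucc_zero, show (1 : Fin 3).castSucc = 1 from rfl,
    show (2 : Fin 3).castSucc = 2 from rfl]
  ring

theorem fr_ac (g : G) (a : Fin 4 → V) :
    fr (fun i => ac g (a i)) = (g : Matrix (Fin 3) (Fin 3) ℝ) * fr a := by
  have h : cw (fun i => ac g (a i)) = cw a := by simp only [cw, d3, ac_det]
  ext i k
  simp only [fr, h, of_apply, ac_apply, mul_apply, Fin.sum_univ_three]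
  ring

theorem fr_smul (c : Fin 4 → ℝ) (a : Fin 4 → V) :
    fr (fun i => c i • a i) = (c 0 * c 1 * c 2 * c 3) • fr a := by
  ext i k
  fin_cases k <;> simp [fr, cw, d3_smul] <;> ring

theorem continuous_fr : Continuous fr := by
  refine continuous_matrix fun i k => ?_
  fin_cases k <;> simp [fr, cw, d3_eq] <;> fun_prop

/-- the cone over a small ball -/
def cone (z : V) (ε : ℝ) : Set V := {a | ∃ t : ℝ, t ≠ 0 ∧ dist (t • a) z < ε}

theorem isOpen_cone (z : V) (ε : ℝ) : IsOpen (cone z ε) := by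
  have : cone z ε = ⋃ t : ℝ, ⋃ _ : t ≠ 0, {a | dist (t • a) z < ε} := by
    ext a; simp [cone]
  rw [this]
  exact isOpen_iUnion fun t => isOpen_iUnion fun _ => isOpen_lt (by fun_prop) continuous_const

theorem mem_cone (z : V) {ε : ℝ} (hε : 0 < ε) : z ∈ cone z ε := ⟨1, one_ne_zero, by simpa⟩

theorem hom0_cone (z : V) (ε : ℝ) : Hom0 (ic (cone z ε)) := by
  intro s hs a
  have : s • a ∈ cone z ε ↔ a ∈ cone z ε :=
    ⟨fun ⟨t, ht, h⟩ => ⟨t * s, mul_ne_zero ht hs, by rwa [mul_smul]⟩,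
      fun ⟨t, ht, h⟩ => ⟨t * s⁻¹, mul_ne_zero ht (inv_ne_zero hs), by
        rwa [smul_smul, mul_assoc, inv_mul_cancel₀ hs, mul_one]⟩⟩
  by_cases h : a ∈ cone z ε
  · rw [ic_of_mem h, ic_of_mem (this.2 h)]
  · rw [ic_of_notMem h, ic_of_notMem (mt this.1 h)]

theorem near_one {τ D : ℝ} (h : τ ^ 3 * D = 1) (hD : |D - 1| < 1 / 10) : |τ - 1| < 1 / 5 := by
  rw [abs_lt] at hD ⊢
  have hs := (show Odd 3 by decide).strictMono_pow (R := ℝ)
  constructor
  · by_contra hc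
    have h1 : τ ^ 3 ≤ (4 / 5) ^ 3 := hs.monotone (by linarith)
    nlinarith
  · by_contra hc
    have h1 : (6 / 5 : ℝ) ^ 3 ≤ τ ^ 3 := hs.monotone (by linarith)
    nlinarith

theorem eq_one_of_near {μ : Γ} {τ : ℝ} {H : Matrix (Fin 3) (Fin 3) ℝ}
    (hg : (ι μ : Matrix (Fin 3) (Fin 3) ℝ) = τ • H) (h2 : |H.det - 1| < 1 / 10)
    (h3 : ∀ i k, |H i k - (1 : Matrix (Fin 3) (Fin 3) ℝ) i k| < 1 / 10) : μ = 1 := by
  have hτ : |τ - 1| < 1 / 5 := near_one (by
    have := congrArg det hg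
    rw [det_smul, (ι μ).det_coe] at this
    simpa using this.symm) h2
  ext i k
  have e : ((μ i k : ℤ) : ℝ) = τ * H i k := congrFun (congrFun hg i) k
  have e' := h3 i k
  have : |μ i k - (1 : Γ) i k| < 1 := by
    have h1 : (((1 : Γ) i k : ℤ) : ℝ) = (1 : Matrix (Fin 3) (Fin 3) ℝ) i k := by
      simp [one_apply]
    have h01 : (1 : Matrix (Fin 3) (Fin 3) ℝ) i k = 0 ∨ (1 : Matrix (Fin 3) (Fin 3) ℝ) i k = 1 := by
      rw [one_apply]; split_ifs <;> simp
    rw [← @Int.cast_lt ℝ, Int.cast_abs, Int.cast_sub, e, h1, Int.cast_one]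
    rw [abs_lt] at hτ e' ⊢
    rcases h01 with h0 | h0 <;> rw [h0] at e' ⊢ <;> constructor <;> nlinarith
  exact sub_eq_zero.1 (Int.abs_lt_one_iff.1 this)

/-- the projective transformation between two frames -/
noncomputable def Hm (p : (Fin 4 → V) × (Fin 4 → V)) : Matrix (Fin 3) (Fin 3) ℝ :=
  (fr p.1).det⁻¹ • (fr p.2 * (fr p.1).adjugate)

theorem ev_near {z : Fin 4 → V} (hz : (fr z).det ≠ 0) : ∀ᶠ p in 𝓝 (z, z), (fr p.1).det ≠ 0 ∧
    |(Hm p).det - 1| < 1 / 10 ∧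
      ∀ i k, |Hm p i k - (1 : Matrix (Fin 3) (Fin 3) ℝ) i k| < 1 / 10 := by
  have c1 : Continuous fun p : (Fin 4 → V) × (Fin 4 → V) => fr p.1 :=
    continuous_fr.comp continuous_fst
  have c2 : Continuous fun p : (Fin 4 → V) × (Fin 4 → V) => fr p.2 :=
    continuous_fr.comp continuous_snd
  have e1 : Tendsto (fun p : (Fin 4 → V) × (Fin 4 → V) => (fr p.1).det) (𝓝 (z, z))
      (𝓝 (fr z).det) := c1.matrix_det.tendsto (z, z)
  have cH' : Tendsto Hm (𝓝 (z, z)) (𝓝 1) := by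
    have := (e1.inv₀ hz).smul ((c2.matrix_mul c1.matrix_adjugate).tendsto (z, z))
    simp only [mul_adjugate, smul_smul, inv_mul_cancel₀ hz, one_smul] at this
    exact this
  refine (e1.eventually_ne hz).and (Eventually.and ?_ ?_)
  · have := (continuous_id.matrix_det.tendsto (1 : Matrix (Fin 3) (Fin 3) ℝ)).comp cH'
    simpa [Real.dist_eq] using Metric.tendsto_nhds.1 this (1 / 10) (by norm_num)
  · refine eventually_all.2 fun i => eventually_all.2 fun k => ?_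
    have := ((continuous_id.matrix_elem i k).tendsto (1 : Matrix (Fin 3) (Fin 3) ℝ)).comp cH'
    simpa [Real.dist_eq] using Metric.tendsto_nhds.1 this (1 / 10) (by norm_num)

theorem eq_smul_Hm {g : Matrix (Fin 3) (Fin 3) ℝ} {τ : ℝ} {a b : Fin 4 → V} (h1 : (fr a).det ≠ 0)
    (key : g * fr a = τ • fr b) : g = τ • Hm (a, b) := by
  rw [Hm, smul_comm, ← smul_mul_assoc, ← key, Matrix.mul_assoc, mul_adjugate, Matrix.mul_smul,
    Matrix.mul_one, smul_smul, inv_mul_cancel₀ h1, one_smul]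

/-- small cones around four points in general position wander -/
theorem exists_wandering {z : Fin 4 → V} (hz : (fr z).det ≠ 0) : ∃ ε > (0 : ℝ), ∀ μ : Γ,
    (∀ i, ∃ a ∈ cone (z i) ε, ac (ι μ) a ∈ cone (z i) ε) → μ = 1 := by
  obtain ⟨ε, hε, h⟩ := Metric.eventually_nhds_iff.1 (ev_near hz)
  refine ⟨ε, hε, fun μ hμ => ?_⟩
  choose a ha ha' using hμ
  choose t ht hta using ha
  choose t' ht' hta' using ha'
  obtain ⟨h1, h2, h3⟩ := @h (fun i => t i • a i, fun i => t' i • ac (ι μ) (a i)) (by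
    rw [Prod.dist_eq, max_lt_iff, dist_pi_lt_iff hε, dist_pi_lt_iff hε]
    exact ⟨hta, hta'⟩)
  refine eq_one_of_near (eq_smul_Hm
    (τ := t 0 / t' 0 * (t 1 / t' 1) * (t 2 / t' 2) * (t 3 / t' 3)) h1 ?_) h2 h3
  rw [← fr_ac, ← fr_smul (fun i => t i / t' i)]
  congr 1
  funext i
  rw [ac_smul, smul_smul, div_mul_cancel₀ _ (ht' i)]

end OutAux

end Crest.Agent.N111
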